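import Vale.Agent.P192.H794.T.T2
import Vale.Agent.P192.H176.Hd3

/-!
# P192: heads on any set with any permutation, actions, counters, lines: explicit form
-/

set_option linter.unusedSectionVars false

namespace Vale.Agent.P192.H794.T

open Vale.Agent.P192 Vale.Agent.P192.H567 Vale.Agent.P192.H593 Vale.Agent.P192.H437
open Vale.Agent.P192.H479 (CellK)
open Vale.Agent.P192.H176.Hd

/-- what the heads see of each other -/
def patT {k : ℕ} {Z : Type} (r : ℕ) (τ : Equiv.Perm Z) (z : Fin k → Z) :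
    Fin k → Fin k → Fin (2 * r + 1) → Prop :=
  fun i j e => (τ ^ (((e : ℕ) : ℤ) - r)) (z i) = z j

theorem patT_iff {k : ℕ} {Z : Type} (r : ℕ) (τ : Equiv.Perm Z) (z z' : Fin k → Z) :
    patT r τ z = patT r τ z' ↔ NearT τ r z z' := by
  constructor
  · intro h i j d hd
    rw [abs_le] at hd
    have h1 : (((d + r).toNat : ℕ) : ℤ) = d + r := Int.toNat_of_nonneg (by omega)
    have h2 : (d + r).toNat < 2 * r + 1 := by omega
    have h3 : ((τ ^ ((((d + r).toNat : ℕ) : ℤ) - r)) (z i) = z j) ↔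
        ((τ ^ ((((d + r).toNat : ℕ) : ℤ) - r)) (z' i) = z' j) :=
      iff_of_eq (congrFun (congrFun (congrFun h i) j) ⟨_, h2⟩)
    rwa [h1, add_sub_cancel_right] at h3
  · intro h
    funext i j e
    apply propext
    refine h i j _ ?_
    have := e.2
    rw [abs_le]
    constructor <;> omega

/-- **Heads, free action, counters, line.** -/
theorem hl_uniformT (L : Type) [Group L] (PU : ∀ (U : Type) [MulAction L U], Prop)
    (hU1 : UnifP L PU) (G : Type) [Group G] [Group.IsFinitelyPresented G]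
    (hG : ∀ x : G, IsOfFinOrder x) (S : Set G) (hS : Subgroup.closure S = ⊤) (k₀ k m r : ℕ)
    (K : Set (L × (Fin k₀ → ℤ) × (Fin k → ℤ))) (hK : K.Finite) :
    ∃ N : Subgroup G, N.Normal ∧ N.FiniteIndex ∧
      ∀ (𝕜 : Type) [Field 𝕜] [LinearOrder 𝕜] [IsStrictOrderedRing 𝕜] (U : Type) [MulAction L U],
      PU U → ∀ (W : Fin k₀ → Type) (T : ∀ i, Equiv.Perm (W i))
        (Z : Type) (τ : Equiv.Perm Z)
        (ρ : G →* Equiv.Perm ((U × (∀ i, W i) × 𝕜) × (Fin k → Z))),
      (∀ s, (s ∈ S ∨ s⁻¹ ∈ S) → ∃ (c : ∀ i, W i → Fin m) (a : Fin k → Z → Fin m)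
        (B R : Finset 𝕜), B.card ≤ m ∧ R.card ≤ m ∧
        ∀ (u : U) (w : ∀ i, W i) (x : 𝕜) (z : Fin k → Z), ∃ q ∈ K, ∃ t ∈ R, ∃ e : 𝕜, |e| = 1 ∧
          ∀ w' : ∀ i, W i, (∀ i, c i (w i) = c i (w' i)) → ∀ x' : 𝕜, CellK B x x' →
            ∀ z' : Fin k → Z, (∀ j, a j (z j) = a j (z' j)) → NearT τ r z z' →
            ρ s ((u, w', x'), z') =
              ((q.1 • u, fun i => (T i ^ q.2.1 i) (w' i), e * x' + t), fun j => (τ ^ q.2.2 j) (z' j))) →
      ∀ g ∈ N, ρ g = 1 := by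
  classical
  obtain ⟨MM, σ, hσS, hσ, -⟩ := exists_tuple G S hS
  have hKf : Finite K := hK
  let Γ : Type := (Fin k₀ → Fin m) × (Fin (m + 1) × Fin (m + 1)) × (Fin k → Fin m) ×
    (Fin k → Fin k → Fin (2 * r + 1) → Prop)
  let V : Type := Option (K × Fin m × ℤˣ)
  have hΓf : Finite Γ := inferInstance
  have hVf : Finite V := inferInstance
  let X₁ : Type := Fin MM × Bool → Γ → V
  let X₂ : Type := Fin MM × Bool → Fin m
  let X₃ : Type := Fin MM × Bool → Fin (m + 1) × Fin (m + 1)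
  have hX₁ : Finite X₁ := inferInstance
  obtain ⟨m', ⟨ε₁, hε₁⟩, ⟨ε₂, hε₂⟩, ⟨ε₃, hε₃⟩, hm'⟩ : ∃ m' : ℕ,
      (∃ ε₁ : X₁ → Fin m', Function.Injective ε₁) ∧ (∃ ε₂ : X₂ → Fin m', Function.Injective ε₂) ∧
      (∃ ε₃ : X₃ → Fin m', Function.Injective ε₃) ∧
      (Finset.univ : Finset (Fin MM × Bool)).card * m ≤ m' := by
    refine ⟨Nat.card X₁ + Nat.card X₂ + Nat.card X₃ +
      (Finset.univ : Finset (Fin MM × Bool)).card * m, ?_, ?_, ?_, by omega⟩
    · exact exists_injF (by omega)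
    · exact exists_injF (by omega)
    · exact exists_injF (by omega)
  obtain ⟨D, hD⟩ : ∃ D : ℕ, ∀ x ∈ K, ∀ j, |x.2.2 j| ≤ (D : ℤ) := by
    have h1 : ∀ j : Fin k, ∃ D : ℕ, ∀ x ∈ K, |x.2.2 j| ≤ (D : ℤ) := by
      intro j
      obtain ⟨c, hc⟩ := (hK.image fun x : L × (Fin k₀ → ℤ) × (Fin k → ℤ) =>
        (x.2.2 j).natAbs).bddAbove
      refine ⟨c, fun x hx => ?_⟩
      have := hc ⟨x, hx, rfl⟩
      rw [Int.abs_eq_natAbs]
      exact_mod_cast this
    choose Df hDf using h1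
    obtain ⟨D, hD⟩ := (Set.finite_range Df).bddAbove
    exact ⟨D, fun x hx j => (hDf j x hx).trans (by exact_mod_cast hD ⟨j, rfl⟩)⟩
  -- the elements of the group
  let elt : Fin MM × Bool → K × Fin m × ℤˣ →
      L × (Fin k₀ → Multiplicative ℤ) × FreeGroup (ℤˣ × ℕ) := fun l v =>
    (v.1.1.1, fun i => Multiplicative.ofAdd (v.1.1.2.1 i),
      FreeGroup.of (v.2.2, Encodable.encode (l, v.2.1)))
  obtain ⟨N, h1, h2, h3⟩ := heads_relT (lineC L PU k₀) (uf_line L PU hU1 k₀) k G hG σ hσ m' m r D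
    (Set.range fun p : (Fin MM × Bool) × K × Fin m × ℤˣ => elt p.1 p.2) (Set.finite_range _)
  refine ⟨N, h1, h2, ?_⟩
  intro 𝕜 _ _ _ U _ hPU W T Z τ ρ hρ g hg
  have hgen : ∀ l : Fin MM × Bool, gen σ l ∈ S ∨ (gen σ l)⁻¹ ∈ S := by
    rintro ⟨i, ε⟩
    cases ε
    · right
      change ((σ i)⁻¹)⁻¹ ∈ S
      rw [inv_inv]; exact hσS ⟨i, rfl⟩
    · left; exact hσS ⟨i, rfl⟩
  choose c a B R hB hR hact using fun l => hρ (gen σ l) (hgen l)
  choose tR htR using fun l => exists_enumF (R l) m (hR l)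
  choose ci hci using fun l => exists_cidx (B l) m (hB l)
  let t : ℕ → 𝕜 := fun n =>
    match (Encodable.decode n : Option ((Fin MM × Bool) × Fin m)) with
    | some p => tR p.1 p.2
    | none => 0
  have ht : ∀ l j, t (Encodable.encode (l, j)) = tR l j := by
    intro l j
    simp only [t, Encodable.encodek]
  -- the values
  let P : Type := (∀ i, W i) × 𝕜 × (Fin k → Z)
  let cl : Fin MM × Bool → P → Γ := fun l p =>
    (fun i => c l i (p.1 i), ci l p.2.1, fun j => a l j (p.2.2 j), patT r τ p.2.2)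
  have hgv : ∀ (l : Fin MM × Bool) (u : U) (p : P), ∃ v : K × Fin m × ℤˣ, ∀ p' : P,
      cl l p = cl l p' → ρ (gen σ l) ((u, p'.1, p'.2.1), p'.2.2) =
        ((v.1.1.1 • u, fun i => (T i ^ v.1.1.2.1 i) (p'.1 i), sgK 𝕜 v.2.2 * p'.2.1 + tR l v.2.1),
          fun j => (τ ^ v.1.1.2.2 j) (p'.2.2 j)) := by
    rintro l u ⟨w, x, z⟩
    obtain ⟨q, hq, t', ht', e, he, h4⟩ := hact l u w x z
    obtain ⟨j, hj⟩ := htR l t' ht'
    obtain ⟨ς, hς⟩ := exists_sgK he
    refine ⟨(⟨q, hq⟩, j, ς), ?_⟩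
    rintro ⟨w', x', z'⟩ hcl
    have e1 : ∀ i, c l i (w i) = c l i (w' i) := fun i => congrFun (congrArg Prod.fst hcl) i
    have e2 : ci l x = ci l x' := congrArg (fun p : Γ => p.2.1) hcl
    have e3 : ∀ j, a l j (z j) = a l j (z' j) := fun j =>
      congrFun (congrArg (fun p : Γ => p.2.2.1) hcl) j
    have e4 : patT r τ z = patT r τ z' := congrArg (fun p : Γ => p.2.2.2) hcl
    have h5 := h4 w' e1 x' ((hci l x x').1 e2) z' e3 ((patT_iff r τ z z').1 e4)
    rw [h5, ← hς, ← hj]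
  choose gv hgv using hgv
  let tab : U → X₁ := fun u l γ => if h : ∃ p : P, cl l p = γ then some (gv l u h.choose) else none
  let act : MulAction (L × (Fin k₀ → Multiplicative ℤ) × FreeGroup (ℤˣ × ℕ))
      (U × (∀ i, W i) × 𝕜) :=
    { smul := fun l y => (l.1 • y.1, fun i => (T i ^ (l.2.1 i).toAdd) (y.2.1 i), wact t l.2.2 y.2.2)
      one_smul := by
        rintro ⟨u, w, x⟩
        change ((1 : L) • u, fun i => (T i ^ (0 : ℤ)) (w i), wact t 1 x) = _
        rw [one_smul, map_one]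
        rfl
      mul_smul := by
        rintro ⟨l, z, v⟩ ⟨l', z', v'⟩ ⟨u, w, x⟩
        change ((l * l') • u, fun i => (T i ^ (z i * z' i).toAdd) (w i), wact t (v * v') x) =
          (l • l' • u, fun i => (T i ^ (z i).toAdd) ((T i ^ (z' i).toAdd) (w i)),
            wact t v (wact t v' x))
        rw [mul_smul, map_mul]
        refine Prod.ext rfl (Prod.ext (funext fun i => ?_) rfl)
        change (T i ^ (z i * z' i).toAdd) (w i) = _
        rw [toAdd_mul, zpow_add]; rfl }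
  have hsmul : ∀ (l : L × (Fin k₀ → Multiplicative ℤ) × FreeGroup (ℤˣ × ℕ))
      (y : U × (∀ i, W i) × 𝕜), l • y =
      (l.1 • y.1, fun i => (T i ^ (l.2.1 i).toAdd) (y.2.1 i), wact t l.2.2 y.2.2) :=
    fun _ _ => rfl
  let b : U × (∀ i, W i) × 𝕜 → Fin m' × (Fin k₀ → Fin m') × Fin m' := fun y =>
    (ε₁ (tab y.1), fun i => ε₂ (fun l => c l i (y.2.1 i)), ε₃ (fun l => ci l y.2.2))
  refine h3 (U × (∀ i, W i) × 𝕜) b ⟨?_⟩ Z τ a ρ ?_ g hg
  · exact
      { 𝕜 := 𝕜
        U := U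
        W := W
        T := T
        t := t
        e := Equiv.refl _
        α := fun u => ε₁ (tab u)
        a := fun i w => ε₂ (fun l => c l i w)
        β := fun x => ε₃ (fun l => ci l x)
        B := Finset.univ.biUnion B
        free := hPU
        card := (Finset.card_biUnion_le_card_mul _ _ m fun l _ => hB l).trans hm'
        cell := by
          intro x x' h
          refine congrArg ε₃ (funext fun l => ?_)
          exact (hci l x x').2 (cellK_mono (Finset.subset_biUnion_of_mem B (Finset.mem_univ l)) h)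
        he := fun _ _ => rfl
        hb := fun _ => rfl }
  · rintro l ⟨u, w, x⟩ z
    have h : ∃ p : P, cl l p = cl l (w, x, z) := ⟨(w, x, z), rfl⟩
    have h4 : tab u l (cl l (w, x, z)) = some (gv l u h.choose) := dif_pos h
    refine ⟨_, ⟨(l, gv l u h.choose), rfl⟩, (gv l u h.choose).1.1.2.2,
      hD _ (gv l u h.choose).1.2, ?_⟩
    rintro ⟨u', w', x'⟩ z' hb ha hnear
    have e1 : tab u = tab u' := hε₁ (congrArg Prod.fst hb)
    have e2 : ∀ i, c l i (w i) = c l i (w' i) := by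
      intro i
      have := hε₂ (congrFun (congrArg
        (fun q : Fin m' × (Fin k₀ → Fin m') × Fin m' => q.2.1) hb) i)
      exact congrFun this l
    have e3 : ci l x = ci l x' := by
      have := hε₃ (congrArg (fun q : Fin m' × (Fin k₀ → Fin m') × Fin m' => q.2.2) hb)
      exact congrFun this l
    have e4 : cl l (w, x, z) = cl l (w', x', z') := by
      change ((fun i => c l i (w i)), ci l x, (fun j => a l j (z j)), patT r τ z) = _
      rw [funext e2, e3, funext ha, (patT_iff r τ z z').2 hnear]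
    have h5 : tab u' l (cl l (w, x, z)) = some (gv l u' h.choose) := dif_pos h
    have e5 : gv l u h.choose = gv l u' h.choose := by
      rw [e1, h5] at h4
      exact (Option.some.inj h4).symm
    have h6 := hgv l u' h.choose (w', x', z') (h.choose_spec.trans e4)
    rw [e5]
    generalize gv l u' h.choose = v at h6
    refine h6.trans ?_
    rw [hsmul]
    change _ = ((v.1.1.1 • u', fun i => (T i ^ (Multiplicative.ofAdd (v.1.1.2.1 i)).toAdd) (w' i),
      wact t (FreeGroup.of (v.2.2, Encodable.encode (l, v.2.1))) x'), fun j => (τ ^ v.1.1.2.2 j) (z' j))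
    rw [wact_of, ht]
    rfl


end Vale.Agent.P192.H794.T
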