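import Vale.Agent.P192.H794.T.T3
import Vale.Agent.P192.H176.Hd8

/-!
# P192: heads on any set with any permutation, actions, counters, lines: inverses, hypotheses on
generators
-/

set_option linter.unusedSectionVars false

namespace Vale.Agent.P192.H794.T

open Vale.Agent.P192 Vale.Agent.P192.H567
open Vale.Agent.P192.H479 (CellK)
open Vale.Agent.P192.H176.Hd

theorem nearT_mono {k r r₁ : ℕ} {Z : Type} (τ : Equiv.Perm Z) {z z' : Fin k → Z} (hr : r ≤ r₁)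
    (h : NearT τ r₁ z z') : NearT τ r z z' :=
  fun i j d hd => h i j d (hd.trans (by exact_mod_cast hr))

theorem nearT_sub {k r D : ℕ} {Z : Type} (τ : Equiv.Perm Z) {z z' : Fin k → Z} {q : Fin k → ℤ}
    (hq : ∀ j, |q j| ≤ (D : ℤ)) (h : NearT τ (r + 2 * D) z z') :
    NearT τ r (fun j => (τ ^ (-(q j))) (z j)) (fun j => (τ ^ (-(q j))) (z' j)) := by
  have key : ∀ (z : Fin k → Z) (i j : Fin k) (d : ℤ),
      (τ ^ d) ((τ ^ (-(q i))) (z i)) = (τ ^ (-(q j))) (z j) ↔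
        (τ ^ (d - q i + q j)) (z i) = z j := by
    intro z i j d
    have e1 : (τ ^ d) ((τ ^ (-(q i))) (z i)) = (τ ^ (d - q i)) (z i) := by
      rw [← Equiv.Perm.mul_apply, ← zpow_add, ← sub_eq_add_neg]
    have e2 : (τ ^ (d - q i + q j)) (z i) = (τ ^ q j) ((τ ^ (d - q i)) (z i)) := by
      rw [← Equiv.Perm.mul_apply, ← zpow_add, add_comm]
    rw [e1, e2, zpow_neg, Equiv.Perm.eq_inv_iff_eq]
  intro i j d hd
  obtain ⟨a1, a2⟩ := abs_le.1 (hq i)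
  obtain ⟨a3, a4⟩ := abs_le.1 (hq j)
  obtain ⟨a5, a6⟩ := abs_le.1 hd
  rw [key, key]
  refine h i j (d - q i + q j) ?_
  rw [abs_le]
  push_cast
  constructor <;> omega

section inv

variable {L : Type} [Group L] {𝕜 : Type} [Field 𝕜] [LinearOrder 𝕜] [IsStrictOrderedRing 𝕜]
  {U : Type} [MulAction L U] {k₀ k : ℕ} {W : Fin k₀ → Type} (T : ∀ i, Equiv.Perm (W i))
  {Z : Type} (τ : Equiv.Perm Z)

/-- the condition on a generator -/
def HLcT (m r : ℕ) (K : Set (L × (Fin k₀ → ℤ) × (Fin k → ℤ)))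
    (φ : Equiv.Perm ((U × (∀ i, W i) × 𝕜) × (Fin k → Z))) : Prop :=
  ∃ (c : ∀ i, W i → Fin m) (a : Fin k → Z → Fin m)
        (B R : Finset 𝕜), B.card ≤ m ∧ R.card ≤ m ∧
        ∀ (u : U) (w : ∀ i, W i) (x : 𝕜) (z : Fin k → Z), ∃ q ∈ K, ∃ t ∈ R, ∃ e : 𝕜, |e| = 1 ∧
          ∀ w' : ∀ i, W i, (∀ i, c i (w i) = c i (w' i)) → ∀ x' : 𝕜, CellK B x x' →
            ∀ z' : Fin k → Z, (∀ j, a j (z j) = a j (z' j)) → NearT τ r z z' →
            φ ((u, w', x'), z') =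
              ((q.1 • u, fun i => (T i ^ q.2.1 i) (w' i), e * x' + t), fun j => (τ ^ q.2.2 j) (z' j))

theorem HLcT.mono {m m₁ r r₁ : ℕ} {K K₁ : Set (L × (Fin k₀ → ℤ) × (Fin k → ℤ))}
    {φ : Equiv.Perm ((U × (∀ i, W i) × 𝕜) × (Fin k → Z))} (hm : m ≤ m₁) (hr : r ≤ r₁)
    (hK : K ⊆ K₁) (h : HLcT T τ m r K φ) : HLcT T τ m₁ r₁ K₁ φ := by
  obtain ⟨c, a, B, R, hB, hR, h⟩ := h
  refine ⟨fun i w => Fin.castLE hm (c i w), fun j z => Fin.castLE hm (a j z), B, R, hB.trans hm,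
    hR.trans hm, ?_⟩
  intro u w x z
  obtain ⟨q, hq, t, ht, e, he, h1⟩ := h u w x z
  exact ⟨q, hK hq, t, ht, e, he, fun w' hw x' hx z' hz hn =>
    h1 w' (fun i => Fin.castLE_injective hm (hw i)) x' hx z'
      (fun j => Fin.castLE_injective hm (hz j)) (nearT_mono τ hr hn)⟩

theorem HLcT.inv {K : Set (L × (Fin k₀ → ℤ) × (Fin k → ℤ))} {D m m₁ r : ℕ}
    (hD : ∀ q ∈ K, ∀ j, |q.2.2 j| ≤ (D : ℤ)) (ε : (K → Fin m) → Fin m₁)
    (hε : Function.Injective ε) (hm1 : m * (2 * m) ≤ m₁) (hm2 : m + m ≤ m₁)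
    {φ : Equiv.Perm ((U × (∀ i, W i) × 𝕜) × (Fin k → Z))} (h : HLcT T τ m r K φ) :
    HLcT T τ m₁ (r + 2 * D) ((fun q => (q.1⁻¹, -q.2.1, -q.2.2)) '' K) φ⁻¹ := by
  classical
  obtain ⟨c, a, B, R, hB, hR, h⟩ := h
  refine ⟨fun i w => ε fun q => c i ((T i ^ (-(q.1.2.1 i))) w),
    fun j z => ε fun q => a j ((τ ^ (-(q.1.2.2 j))) z), backB B R, backR R,
    (backB_card B R m hB hR).trans hm1, (backR_card R m hR).trans hm2, ?_⟩
  intro u' w' x' z'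
  obtain ⟨⟨⟨u, w, x⟩, z⟩, hp⟩ := φ.surjective ((u', w', x'), z')
  obtain ⟨q, hq, t, ht, e, he, h1⟩ := h u w x z
  obtain ⟨σ, rfl⟩ := exists_sgK he
  have h2 := (h1 w (fun _ => rfl) x (fun _ _ => ⟨Iff.rfl, Iff.rfl⟩) z (fun _ => rfl)
    (nearT_refl τ r z)).symm.trans hp
  have e1 : q.1 • u = u' := congrArg (fun p => p.1.1) h2
  have e2 : ∀ i, (T i ^ q.2.1 i) (w i) = w' i := fun i =>
    congrFun (congrArg (fun p => p.1.2.1) h2) i
  have e3 : sgK 𝕜 σ * x + t = x' := congrArg (fun p => p.1.2.2) h2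
  have e4 : ∀ j, (τ ^ q.2.2 j) (z j) = z' j := fun j => congrFun (congrArg (fun p => p.2) h2) j
  have e4' : ∀ j, (τ ^ (-(q.2.2 j))) (z' j) = z j := by
    intro j
    rw [← e4 j, zpow_neg]
    exact Equiv.symm_apply_apply _ _
  have e4s : (fun j => (τ ^ (-(q.2.2 j))) (z' j)) = z := funext e4'
  have e2' : ∀ i, (T i ^ (-(q.2.1 i))) (w' i) = w i := by
    intro i
    rw [← e2 i, zpow_neg]
    exact Equiv.symm_apply_apply _ _
  refine ⟨_, ⟨q, hq, rfl⟩, _, backR_mem R σ ht, sgK 𝕜 σ, abs_sgK σ, ?_⟩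
  intro w'' hw x'' hx z'' hz hn
  rw [Equiv.Perm.inv_eq_iff_eq]
  have h3 := h1 (fun i => (T i ^ (-(q.2.1 i))) (w'' i)) (fun i => by
    have := congrFun (hε (hw i)) ⟨q, hq⟩
    change c i ((T i ^ (-(q.2.1 i))) (w' i)) = c i ((T i ^ (-(q.2.1 i))) (w'' i)) at this
    rw [e2'] at this
    exact this) (sgK 𝕜 σ * x'' + -(sgK 𝕜 σ * t)) (by
    have := backB_cell B R σ ht hx
    rw [← e3, back_eq'] at this
    exact this) (fun j => (τ ^ (-(q.2.2 j))) (z'' j)) (fun j => by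
    have := congrFun (hε (hz j)) ⟨q, hq⟩
    change a j ((τ ^ (-(q.2.2 j))) (z' j)) = a j ((τ ^ (-(q.2.2 j))) (z'' j)) at this
    rw [e4'] at this
    exact this) (by
    have := nearT_sub τ (hD q hq) hn
    rw [e4s] at this
    exact this)
  change _ = φ ((q.1⁻¹ • u', fun i => (T i ^ (-(q.2.1 i))) (w'' i),
    sgK 𝕜 σ * x'' + -(sgK 𝕜 σ * t)), fun j => (τ ^ (-(q.2.2 j))) (z'' j))
  rw [← e1, inv_smul_smul, h3, e1]
  refine Prod.ext (Prod.ext rfl (Prod.ext (funext fun i => ?_) ?_)) (funext fun j => ?_)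
  · change w'' i = (T i ^ q.2.1 i) ((T i ^ (-(q.2.1 i))) (w'' i))
    rw [zpow_neg]
    exact (Equiv.apply_symm_apply _ _).symm
  · exact (back_eq σ x'' t).symm
  · change z'' j = (τ ^ q.2.2 j) ((τ ^ (-(q.2.2 j))) (z'' j))
    rw [zpow_neg]
    exact (Equiv.apply_symm_apply _ _).symm

end inv

/-- **Heads, action, counters, line; hypotheses on the generators.** -/
theorem hl_uniformTS (L : Type) [Group L] (PU : ∀ (U : Type) [MulAction L U], Prop)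
    (hU1 : UnifP L PU) (G : Type) [Group G] [Group.IsFinitelyPresented G]
    (hG : ∀ x : G, IsOfFinOrder x) (S : Set G) (hS : Subgroup.closure S = ⊤) (k₀ k m r : ℕ)
    (K : Set (L × (Fin k₀ → ℤ) × (Fin k → ℤ))) (hK : K.Finite) :
    ∃ N : Subgroup G, N.Normal ∧ N.FiniteIndex ∧
      ∀ (𝕜 : Type) [Field 𝕜] [LinearOrder 𝕜] [IsStrictOrderedRing 𝕜] (U : Type) [MulAction L U],
      PU U → ∀ (W : Fin k₀ → Type) (T : ∀ i, Equiv.Perm (W i))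
        (Z : Type) (τ : Equiv.Perm Z)
        (ρ : G →* Equiv.Perm ((U × (∀ i, W i) × 𝕜) × (Fin k → Z))),
      (∀ s ∈ S, ∃ (c : ∀ i, W i → Fin m) (a : Fin k → Z → Fin m)
        (B R : Finset 𝕜), B.card ≤ m ∧ R.card ≤ m ∧
        ∀ (u : U) (w : ∀ i, W i) (x : 𝕜) (z : Fin k → Z), ∃ q ∈ K, ∃ t ∈ R, ∃ e : 𝕜, |e| = 1 ∧
          ∀ w' : ∀ i, W i, (∀ i, c i (w i) = c i (w' i)) → ∀ x' : 𝕜, CellK B x x' →
            ∀ z' : Fin k → Z, (∀ j, a j (z j) = a j (z' j)) → NearT τ r z z' →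
            ρ s ((u, w', x'), z') =
              ((q.1 • u, fun i => (T i ^ q.2.1 i) (w' i), e * x' + t), fun j => (τ ^ q.2.2 j) (z' j))) →
      ∀ g ∈ N, ρ g = 1 := by
  have hKf : Finite K := hK
  obtain ⟨D, hD⟩ := exists_bound K hK fun q => q.2.2
  obtain ⟨m₁, hm, hm1, hm2, ε, hε⟩ : ∃ m₁ : ℕ, m ≤ m₁ ∧ m * (2 * m) ≤ m₁ ∧ m + m ≤ m₁ ∧
      ∃ ε : (K → Fin m) → Fin m₁, Function.Injective ε := by
    refine ⟨Nat.card (K → Fin m) + m * (2 * m) + (m + m), by omega, by omega, by omega, ?_⟩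
    exact exists_injF (by omega)
  obtain ⟨N, h1, h2, h3⟩ := hl_uniformT L PU hU1 G hG S hS k₀ k m₁ (r + 2 * D)
    (K ∪ (fun q => (q.1⁻¹, -q.2.1, -q.2.2)) '' K) (hK.union (hK.image _))
  refine ⟨N, h1, h2, ?_⟩
  intro 𝕜 _ _ _ U _ hU W T Z τ ρ hρ g hg
  refine h3 𝕜 U hU W T Z τ ρ ?_ g hg
  rintro s (hs | hs)
  · exact HLcT.mono T τ hm (by omega) Set.subset_union_left (hρ s hs)
  · have h4 := HLcT.inv T τ hD ε hε hm1 hm2 (hρ s⁻¹ hs)
    rw [← map_inv, inv_inv] at h4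
    exact HLcT.mono T τ le_rfl le_rfl Set.subset_union_right h4


end Vale.Agent.P192.H794.T
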